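import Vale.Agent.P168.Final

open MeasureTheory ProbabilityTheory
open Vale.Agent.P168

namespace Vale.Agent.Results.P168.ClassDisproof

/-- The Mézard–Parisi formula does not hold for every model of the class of the problem. It fails
(with a gap, uniformly in `N`) for a model with `f_1, ..., f_K` independent and identically
distributed and `b` independent of each `f_i`; for a model with `f_1, ..., f_K` independent and `b`
independent of `(f_1, ..., f_K)`; and for a model with `(f_1, ..., f_K)` exchangeable and `b`
independent of `(f_1, ..., f_K)`. -/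
theorem result :
    (¬ ∀ M : Model, M.MezardParisi) ∧
    (∃ M : Model, iIndepFun M.f M.P ∧ (∀ i j, IdentDistrib (M.f i) (M.f j) M.P M.P) ∧
      (∀ i, IndepFun M.b (M.f i) M.P) ∧ M.Gap ∧ ¬ M.MezardParisi) ∧
    (∃ M : Model, IndepFun M.b (fun ω i => M.f i ω) M.P ∧ iIndepFun M.f M.P ∧
      M.Gap ∧ ¬ M.MezardParisi) ∧
    (∃ M : Model, IndepFun M.b (fun ω i => M.f i ω) M.P ∧
      (∀ e : Equiv.Perm (Fin M.K),
        IdentDistrib (fun ω i => M.f i ω) (fun ω i => M.f (e i) ω) M.P M.P) ∧
      M.Gap ∧ ¬ M.MezardParisi) :=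
  ⟨fun h => gapA.not_mezardParisi (h modelA), main⟩

end Vale.Agent.Results.P168.ClassDisproof
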